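import Vale.Agent.P167.H365.L.Law

/-!
# P167, general `q`, block Q-LAM: [L-FLAT] from [L-GEN]
-/

namespace Vale.Agent.P167.H365.L

open Finset Vale.Agent.P145.FB
open Vale.Agent.P167 Vale.Agent.P167.BR Vale.Agent.P167.FK
open Vale.Agent.P167.E6 (IsPolygon Encloses dir face)
open Vale.Agent.P167.H318.LC (sqP sqS)
open Vale.Agent.P167.H718.Lam (enP Pg L_flat L_gen)
open Vale.Agent.P167.H975 (TX TX_base GoodB)
open Vale.Agent.P167.H685.LD (Ea SE strip_ge mem_Bq)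
open Vale.Agent.P167.H632 (pr)
open Vale.Agent.P167.H365.NQ (XW)
open Vale.Agent.P167.H192.Q (SRSW)
open Vale.Agent.P167.H601.LG (GeoN Spe SepL wJ Kt feet near_spe wJ_lp exists_low_wJ)

variable {n s k : ℕ} {a : ℤ × ℤ} {τ : ℕ → ℤ} {η : Cfg} {θ σ R : ℝ}

theorem mem_sp {X : Pg} {j : ℕ} : j ∈ X.sp ↔ j < X.N ∧ Spe X.τ X.k j := by
  classical
  unfold Pg.sp
  rw [mem_filter, mem_range]

/-- The numbers. -/
theorem nums {Λ r0 : ℤ} (hΛ : 2 ≤ Λ) {ε : ℝ} (e0 : 0 < ε) (e1 : ε ≤ 1 / 100) {K : ℕ}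
    (hK : 2 * Λ / ε ≤ K) {n : ℕ} (hn : (2 * (1 + Λ) + 2 * Λ * (|r0| + 1) + 200 : ℝ) / ε ≤ n) :
    ∃ r' : ℤ, 1 ≤ r' ∧ r0 ≤ r' ∧ Λ * r' ≤ ⌊ε * n⌋ ∧ (Λ + 1) * r' < n ∧ (n : ℤ) ≤ K * r' ∧
      200 ≤ ⌊ε * n⌋ := by
  have hΛr : (2 : ℝ) ≤ Λ := by exact_mod_cast hΛ
  rw [div_le_iff₀ e0] at hn
  have hr0 : (0 : ℝ) ≤ |(r0 : ℝ)| := abs_nonneg _
  have hn2 : (2 * (1 + Λ) + 2 * Λ * (|(r0 : ℝ)| + 1) + 200 : ℝ) ≤ ε * n := by
    push_cast at hn
    linarith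
  have f1 := Int.floor_le (ε * n)
  have f2 := Int.lt_floor_add_one (ε * n)
  set x := ⌊ε * (n : ℝ)⌋ with hx
  have g1 : Λ * (x / Λ) ≤ x := Int.mul_ediv_self_le (by omega)
  have g2 : x < Λ * (x / Λ) + Λ := by
    have := Int.lt_mul_ediv_self_add (x := x) (k := Λ) (by omega)
    linarith
  have g1r : (Λ : ℝ) * ((x / Λ : ℤ) : ℝ) ≤ x := by exact_mod_cast g1
  have g2r : (x : ℝ) < Λ * ((x / Λ : ℤ) : ℝ) + Λ := by exact_mod_cast g2
  set y := x / Λ with hy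
  have hL : ε * n ≤ 2 * (Λ * (y : ℝ)) := by nlinarith
  have hy1 : |(r0 : ℝ)| + 1 ≤ y := by
    have h1 : 2 * Λ * (|(r0 : ℝ)| + 1) ≤ 2 * Λ * (y : ℝ) := by nlinarith
    exact le_of_mul_le_mul_left h1 (by linarith)
  have hy2 : r0 ≤ y := by
    have : (r0 : ℝ) ≤ y := by linarith [le_abs_self (r0 : ℝ)]
    exact_mod_cast this
  have hy3 : 1 ≤ y := by
    have : (1 : ℝ) ≤ y := by linarith
    exact_mod_cast this
  have hn0 : (0 : ℝ) ≤ n := Nat.cast_nonneg n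
  refine ⟨y, hy3, hy2, g1, ?_, ?_, ?_⟩
  · have h1 : ((Λ + 1 : ℝ)) * y < n := by
      have h2 : (y : ℝ) ≤ Λ * y := by nlinarith
      have h3 : ε * n ≤ 1 / 100 * n := mul_le_mul_of_nonneg_right e1 hn0
      have h4 : (0 : ℝ) < n := by
        by_contra hc
        have : (n : ℝ) = 0 := le_antisymm (not_lt.1 hc) hn0
        rw [this, mul_zero] at hn2
        nlinarith
      nlinarith
    exact_mod_cast h1
  · have h1 : (n : ℝ) ≤ K * y := by
      have h2 : (0 : ℝ) ≤ y := by linarith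
      have h3 : 2 * Λ / ε * y ≤ K * y := mul_le_mul_of_nonneg_right hK h2
      have h4 : (n : ℝ) ≤ 2 * Λ / ε * y := by
        rw [div_mul_eq_mul_div, le_div_iff₀ e0]
        linarith
      linarith
    exact_mod_cast h1
  · have : (200 : ℝ) ≤ ε * n := by nlinarith
    rw [hx]
    exact Int.le_floor.2 (by exact_mod_cast this)

/-- **[L-FLAT].** -/
theorem l_flat (h0 : 0 < θ) (h1 : θ ≤ Real.pi / 3) (hR : RSW (2 * Real.cos θ))
    (hSR : SRSW (2 * Real.cos θ)) (hL : L_gen θ) : L_flat θ := by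
  have hpi := Real.pi_pos
  have hcos : 1 / 2 ≤ Real.cos θ := by
    rw [← Real.cos_pi_div_three]
    exact Real.cos_le_cos_of_nonneg_of_le_pi h0.le (by linarith) h1
  have hcos0 : Real.cos θ ≠ 0 := by linarith
  have hQ : (1 : ℝ) ≤ 2 * Real.cos θ := by linarith
  obtain ⟨c₁, c10, c11, hc₁⟩ := exists_low_wJ h0 h1
  obtain ⟨Λ, hΛ, hst⟩ := strip_ge hQ hR hSR
  intro σ R hσ
  obtain ⟨ρ₀, p0, p1, p2, hρ₀⟩ := hL σ R c₁ hσ c10
  refine ⟨ρ₀, p0, fun ρ q0 q1 => ?_⟩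
  obtain ⟨ε, e0, e1, hε⟩ := hρ₀ ρ q0 q1
  obtain ⟨K, hK⟩ := exists_nat_ge (2 * (Λ : ℝ) / ε)
  obtain ⟨c₂, r0, c20, hst⟩ := hst K
  obtain ⟨c, n₀, c0, hc⟩ := hε c₂ c20
  obtain ⟨M, hM⟩ := exists_nat_ge ((2 * (1 + Λ) + 2 * Λ * (|r0| + 1) + 200 : ℝ) / ε)
  refine ⟨c, max n₀ M, c0, fun n hn s a k τ η hs0 hs hX hfl => ?_⟩
  have hn0 : 0 < n := by omega
  have hnM : (M : ℝ) ≤ n := by exact_mod_cast (le_max_right n₀ M).trans hn
  obtain ⟨r', t1, t2, t3, t4, t5, t6⟩ := nums (r0 := r0) hΛ e0 (by linarith) hK (hM.trans hnM)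
  -- the separation
  have hnr : (0 : ℝ) < n := by exact_mod_cast hn0
  set X := enP (sqP 0) sqS n s a k τ η with hXd
  set L := ⌊σ * (n : ℝ)⌋₊ with hLd
  have hle : ⌊ε * (n : ℝ)⌋ ≤ ⌊ρ₀ * (n : ℝ)⌋ :=
    Int.floor_le_floor (mul_le_mul_of_nonneg_right (by linarith) hnr.le)
  have hL1 : 100 * ⌊ρ₀ * (n : ℝ)⌋ ≤ L + 1 := by
    have g1 := Int.floor_le (ρ₀ * (n : ℝ))
    have g2 := Nat.lt_floor_add_one (σ * (n : ℝ))
    have g3 : (100 * (⌊ρ₀ * (n : ℝ)⌋ : ℝ)) ≤ (L : ℝ) + 1 := by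
      have : 100 * (ρ₀ * (n : ℝ)) ≤ σ * n := by nlinarith
      linarith
    exact_mod_cast g3
  have hL2 : 100 * ⌊ρ₀ * (n : ℝ)⌋ ≤ n := by
    have g1 := Int.floor_le (ρ₀ * (n : ℝ))
    have g3 : (100 * (⌊ρ₀ * (n : ℝ)⌋ : ℝ)) ≤ (n : ℝ) := by
      have : ρ₀ * (n : ℝ) ≤ 1 / 100 * n := mul_le_mul_of_nonneg_right p2 hnr.le
      linarith
    exact_mod_cast g3
  set rρ := ⌊ρ₀ * (n : ℝ)⌋ with hrρ
  set rε := ⌊ε * (n : ℝ)⌋ with hrε
  obtain ⟨s1, s2⟩ := sep_base hX hn0 hs0 hs hX.sep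
  change L ≤ s at s1
  change L ≤ n - s at s2
  -- the colour
  have hfw : k = 0 ∨ k = 4 * n := hfl.fw
  have hq0 : X.q 0 = (a.1 + s, a.2) := q_base hn0 hs
  obtain ⟨e, he, hpar⟩ : ∃ e, GoodB (4 * n) k e ∧ (a.1 + s + a.2) % 2 = pr e := by
    rcases hfw with h | h
    · refine ⟨true, Or.inr ⟨rfl, h⟩, ?_⟩
      have h2 := hfl.even h
      rw [hq0, Int.even_iff] at h2
      exact h2
    · refine ⟨false, Or.inl ⟨rfl, h⟩, ?_⟩
      have h2 := hfl.odd h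
      rw [hq0, Int.even_iff] at h2
      have h3 : pr false = 1 := rfl
      dsimp only at h2
      omega
  -- the local product at the base
  have hT : ∀ r : ℤ, 1 ≤ r → r ≤ rρ → ∀ ω, X.T θ 0 r ω =
      (Ea e X.D (a.1 + s, a.2) r).indicator 1 ω := by
    intro r r1 r2 ω
    have h := TX_base (R := r + 2) (s := n - s) (r := r) (e := e) (ω := ω)
      (β := (θ - Real.pi) / 2) h0 h1 hX.geo hX.poly hX.enc hX.sep
      hfl.flat he (jb hn0 (by omega) (by omega) (by omega)) (by rw [hq0]; exact hpar) r1 le_rfl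
      (by omega) (by omega) (by omega) (by show 2 * (r + 1) + ((n - s : ℕ) : ℤ) < ((4 * n : ℕ) : ℤ); omega)
    rw [hq0] at h
    rw [← h]
    unfold Pg.T
    rw [Nat.cast_zero, hq0]
    rfl
  have hTZ : ∀ r : ℤ, 1 ≤ r → r ≤ rρ → ∀ ω, X.TZ θ {0} r ω =
      (Ea e X.D (a.1 + s, a.2) r).indicator 1 ω := by
    intro r r1 r2 ω
    unfold Pg.TZ
    rw [prod_singleton, hT r r1 r2]
  have hind : ∀ (S : Set Cfg) (ω : Cfg), S.indicator (1 : Cfg → ℝ) ω = 0 ∨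
      S.indicator (1 : Cfg → ℝ) ω = 1 := by
    intro S ω
    by_cases h : ω ∈ S
    · right; rw [Set.indicator_of_mem h, Pi.one_apply]
    · left; rw [Set.indicator_of_notMem h]
  have h0sp : 0 ∈ X.sp := mem_sp.2 ⟨show 0 < 4 * n by omega, Or.inl rfl⟩
  refine hc n ((le_max_left _ _).trans hn) X hX (X.sp.erase 0) {0} ?_ ?_ ?_ ?_ ?_
    ((SE e (a.1 + s, a.2) r' (Λ * r') (a.2 + n)).indicator 1) ?_ ?_ ?_
  · rw [disjoint_singleton_right]
    exact notMem_erase _ _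
  · rw [union_comm, ← insert_eq, insert_erase h0sp]
  · -- corners
    intro j hj ω A hA hin
    rw [mem_erase, mem_sp] at hj
    obtain ⟨j0, j1, j2⟩ := hj
    show c₁ ≤ wJ θ ((θ - Real.pi) / 2) X.q X.D k τ A
    by_cases hl : IsLp X.D A
    · rw [wJ_lp hX.poly hX.enc hA hl hcos0]
      exact c11
    · have hF := not_fw hX hfw hA hl
      have ht := hX.geo.turn (j - 1)
      rw [Nat.sub_add_cancel (by omega), abs_le] at ht
      rcases near_spe hX.geo hX.poly hX.enc hA hl hX.sep (by omega) j1 j2 (r := rρ) (by omega)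
        (by omega) hin with ⟨-, h2, -⟩ | ⟨-, h2, -⟩
      · change Kt X.q τ A = τ j - τ (j - 1) at h2
        change -1 ≤ τ j - τ (j - 1) ∧ τ j - τ (j - 1) ≤ 1 at ht
        exact hc₁ hX.poly hX.enc hA hF (by omega) (by omega)
      · change Kt X.q τ A = 0 at h2
        exact hc₁ hX.poly hX.enc hA hF (by omega) (by omega)
  · -- the base
    intro j hj ω r r1 r2
    rw [mem_singleton] at hj
    rw [hj, hT r r1 r2]
    exact hind _ _
  · exact XW_nonneg h0 h1 hX hs hfw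
  · intro ω
    rcases hind (SE e (a.1 + s, a.2) r' (Λ * r') (a.2 + n)) ω with h | h <;> rw [h] <;> norm_num
  · -- no weight zero
    intro ω hH hZ A hA
    rw [hTZ rε (by omega) hle] at hZ
    have m1 : ω ∈ SE e (a.1 + s, a.2) r' (Λ * r') (a.2 + n) := by
      by_contra h; exact hH (Set.indicator_of_notMem h _)
    have m2 : ω ∈ Ea e X.D (a.1 + s, a.2) rε := by
      by_contra h; exact hZ (Set.indicator_of_notMem h _)
    show c₁ ≤ wJ θ ((θ - Real.pi) / 2) X.q X.D k τ A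
    by_cases hl : IsLp X.D A
    · rw [wJ_lp hX.poly hX.enc hA hl hcos0]
      exact c11
    · have hF := not_fw hX hfw hA hl
      obtain ⟨k0, k1⟩ := kt_le hX hs hA hl
      rw [← hXd] at k0 k1
      have hno := no_four (ω := ω) (A := A) (e := e) (r := rε) (r' := r') (R' := Λ * r') hn0
        hX.poly hX.enc hpar t1 (by positivity) t3 (by omega) (by omega) m2 m1 hA hl
      have k2 : Kt X.q τ A ≤ 3 := by
        rcases k1 with k1 | ⟨-, k1⟩
        · exact k1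
        · exact absurd k1 hno
      exact hc₁ hX.poly hX.enc hA hF (show -1 ≤ Kt X.q τ A by omega) k2
  · -- the law
    intro F hF0 hF
    have h2 : (fun ω => F ω * X.TZ θ {0} rε ω) =
        fun ω => F ω * (Ea e X.D (a.1 + s, a.2) rε).indicator 1 ω := by
      funext ω
      rw [hTZ rε (by omega) hle]
    have h3 : (fun ω => F ω * X.TZ θ {0} rε ω *
        (SE e (a.1 + s, a.2) r' (Λ * r') (a.2 + n)).indicator 1 ω) =
        fun ω => F ω * (Ea e X.D (a.1 + s, a.2) rε).indicator 1 ω *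
          (SE e (a.1 + s, a.2) r' (Λ * r') (a.2 + n)).indicator 1 ω := by
      funext ω
      rw [hTZ rε (by omega) hle]
    rw [h2, h3]
    refine ext_cond hQ hX.dob.good hF hF0 fun ω hω => ?_
    refine hst e (a.1 + s, a.2) (a.2 + n) r' _ ω hω t2 ?_ ?_ ?_
    · dsimp only
      linarith
    · dsimp only
      linarith
    · intro v v1 v2 v3 v4
      dsimp only at v1 v2 v3
      rw [mem_sdiff, mem_D, mem_biUnion]
      refine ⟨by omega, ?_⟩
      rintro ⟨j, hj, hv⟩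
      rw [mem_erase, mem_sp] at hj
      obtain ⟨j0, j1, j2⟩ := hj
      have h4 : (X.q (j : ZMod X.N)).1 = a.1 ∨ (X.q (j : ZMod X.N)).1 = a.1 + n :=
        corner_of_spe hX hn0 hs hfw (by omega) j1 j2
      rw [mem_Bq] at hv
      rcases h4 with h4 | h4 <;> omega

end Vale.Agent.P167.H365.L
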