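import Vale.Agent.P167.H365.L.Sq

/-!
# P167, general `q`, block Q-LAM, [L-FLAT]: no strand of turning `4`
-/

namespace Vale.Agent.P167.H365.L

open Finset Vale.Agent.P145.FB
open Vale.Agent.P167 Vale.Agent.P167.BR Vale.Agent.P167.FK
open Vale.Agent.P167.E6 (IsPolygon Encloses dir face)
open Vale.Agent.P167.Enl (PN qN qN_nat PN_lin PN_add_l)
open Vale.Agent.P167.H825 (enl pdir ptau)
open Vale.Agent.P167.H318.LC (sqP sqS sq_poly sq_encl sq_pdir sq_ptau q_nat tau_ptau)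
open Vale.Agent.P167.H718.Lam (enP Pg)
open Vale.Agent.P167.H975 (qr qr_poly qr_encl JB oldi xy_old)
open Vale.Agent.P167.H685.LD (JW nm_le SE Ea fw_iff Cl mem_Bq)
open Vale.Agent.P167.H632 (cs pr)
open Vale.Agent.P167.QX (lo hi lo_xy hi_xy exists_xy)
open Vale.Agent.P167.H192 (TA.dq)

variable {n s k : ℕ} {a : ℤ × ℤ} {τ : ℕ → ℤ} {η : Cfg} {ω : Cfg} {A : Finset Ed} {e : Bool}
  {r r' R' : ℤ}

/-- **No strand of turning `4`** if a path of the colour `e` around the base is joined to the north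
side and `Ea` holds. -/
theorem no_four (hn : 0 < n) (hq : IsPolygon (enP (sqP 0) sqS n s a k τ η).q)
    (hD : Encloses (enP (sqP 0) sqS n s a k τ η).q (enP (sqP 0) sqS n s a k τ η).D)
    (hpar : (a.1 + s + a.2) % 2 = pr e) (hr' : 1 ≤ r') (hR' : 0 ≤ R') (hRr : R' ≤ r)
    (h1 : r + 2 < s) (h2 : r + 2 + s < n)
    (hE : ω ∈ Ea e (enP (sqP 0) sqS n s a k τ η).D (a.1 + s, a.2) r)
    (hS : ω ∈ SE e (a.1 + s, a.2) r' R' (a.2 + n))
    (hA : A ∈ pcs ω (enP (sqP 0) sqS n s a k τ η).D)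
    (hl : ¬ IsLp (enP (sqP 0) sqS n s a k τ η).D A) :
    ¬ (lo (enP (sqP 0) sqS n s a k τ η).q A + s < n ∧
      4 * n ≤ hi (enP (sqP 0) sqS n s a k τ η).q A + s) := by
  rintro ⟨hlo, hhi⟩
  have hs : s < n := by omega
  set q : ZMod (4 * n) → ℤ × ℤ := (enP (sqP 0) sqS n s a k τ η).q with hqd
  set D := (enP (sqP 0) sqS n s a k τ η).D with hDd
  have hW : JW (qr q (n - s)) D (3 * n + s) (r + 2) := jw hn (by omega) h1 h2
  have hc : qr q (n - s) ((3 * n + s : ℕ) : ZMod (4 * n)) = (a.1 + s, a.2) := by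
    rw [hqd, qr_south hn hs (by omega) (by omega)]
    refine Prod.ext ?_ rfl
    dsimp only
    push_cast
    ring
  have hq' : IsPolygon (qr q (n - s)) := qr_poly hq _
  have hD' : Encloses (qr q (n - s)) D := qr_encl hD _
  obtain ⟨u, t, z, s1, s2, s3, s4, s5, s6, s7, s8, z1, z2, z3, z4⟩ := hS
  dsimp only at s1 s2 s3 s4 s5 s6 z1 z2 z3
  obtain ⟨c1, c11, c12, c13⟩ := hW.site (t := u) (by rw [hc]; exact s1) (by
    rw [hc, abs_le]
    dsimp only
    omega)
  obtain ⟨c2, c21, c22, c23⟩ := hW.site (t := t) (by rw [hc]; exact s2) (by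
    rw [hc, abs_le]
    dsimp only
    omega)
  rw [hc] at c11 c21
  dsimp only at c11 c21
  push_cast at c11 c21
  -- the site of the north side
  obtain ⟨c3, c31⟩ : ∃ c3 : ℕ, (c3 : ℤ) = 2 * n - (z.1 - a.1) :=
    ⟨(2 * n - (z.1 - a.1)).toNat, by rw [Int.toNat_of_nonneg (by omega)]⟩
  have c32 : qr q (n - s) (c3 : ZMod (4 * n)) = z := by
    rw [hqd, qr_north hn hs (by omega) (by omega)]
    refine Prod.ext ?_ ?_
    · dsimp only
      omega
    · dsimp only
      omega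
  have key := fw_iff (e := e) (ω := ω) (A := A) (k := 3 * n + s) (r := r) (ρ := R') (c1 := c1)
    (c2 := c2) (c3 := c3) hq' hD' hW hR' hRr (by omega) le_rfl (by
      rw [hc]
      exact hpar) (by rw [hc]; exact hE) (by push_cast; omega) (by omega) (by omega)
    (by push_cast; omega) (by omega) (by
      rw [hc, c12, c22]
      refine s8.mono ?_ subset_rfl
      rintro v ⟨hv, hv'⟩
      simp only [TA.dq, Set.mem_ofPred_eq] at hv'
      refine ⟨hv, Finset.mem_coe.2 (Finset.mem_inter.2 ⟨?_, ?_⟩)⟩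
      · rw [hDd, mem_D]
        omega
      · rw [mem_Bq]
        dsimp only
        omega) (by
      rw [c12, c32]
      refine z4.mono ?_ subset_rfl
      rintro v ⟨hv, hv'⟩
      simp only [Cl, Set.mem_ofPred_eq] at hv'
      refine ⟨hv, Finset.mem_coe.2 ?_⟩
      rw [hDd, mem_D]
      omega) (by rw [c12]; exact s7) hA hl
  obtain ⟨x, y, hxy⟩ := exists_xy hq' hD' hA hl
  have hxy' : H718.IsXY q A (oldi (4 * n) (n - s) x) (oldi (4 * n) (n - s) y) :=
    xy_old hq (show n - s ≤ 4 * n by omega) hxy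
  have hx := hxy.1
  have hy := hxy.2.1
  have e1 := lo_xy hq' hD' hA hxy
  have e2 := hi_xy hq' hD' hA hxy
  have e3 := lo_xy hq hD hA hxy'
  have e4 := hi_xy hq hD hA hxy'
  rw [e3] at hlo
  rw [e4] at hhi
  rw [e1, e2] at key
  change x < 4 * n at hx
  change y < 4 * n at hy
  unfold oldi at hlo hhi
  split_ifs at hlo hhi <;> omega

end Vale.Agent.P167.H365.L
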