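import Vale.Agent.P167.H365.L.Wt

/-!
# P167, general `q`, block Q-LAM, [L-FLAT]: the conditional probability of the extension
-/

namespace Vale.Agent.P167.H365.L

open Finset Vale.Agent.P145.FB
open Vale.Agent.P167 Vale.Agent.P167.BR Vale.Agent.P167.FK
open Vale.Agent.P167.FKA (Ind Loc)
open Vale.Agent.P167.H685.LD (Ea Ea_up SE inc_SE fkg_cond)
open Vale.Agent.P167.H632 (cs pr IncC)

variable {D B : Finset (ℤ × ℤ)} {e : Bool} {a x : ℤ × ℤ} {r r' R' H : ℤ} {Q c : ℝ} {η : Cfg}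
  {F : Cfg → ℝ}

theorem inc_Ea (e : Bool) (D : Finset (ℤ × ℤ)) (a : ℤ × ℤ) (r : ℤ) : IncC e (Ea e D a r) :=
  fun _ _ h h1 => Ea_up (fun v _ _ hv => h v hv) h1

/-- a functional of the squares of `B` does not depend on the other squares -/
theorem ind_of_loc (hF : Loc (D ∩ B) F) : Ind (D \ B) F := by
  intro ω ω' h
  refine hF ω ω' fun v hv => h v fun hv' => ?_
  rw [mem_inter] at hv
  rw [mem_sdiff] at hv'
  exact hv'.2 hv.2

/-- **The extension has positive conditional probability.** -/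
theorem ext_cond (hQ : 1 ≤ Q) (hη : Good η) (hF : Loc (D ∩ B) F) (hF0 : ∀ ω, 0 ≤ F ω)
    (h : ∀ ω, Good ω → c ≤ FK.Pr Q (D \ B) ω (SE e x r' R' H)) :
    c * Ex Q D η (fun ω => F ω * (Ea e D x r).indicator 1 ω) ≤
      Ex Q D η (fun ω => F ω * (Ea e D x r).indicator 1 ω *
        (SE e x r' R' H).indicator 1 ω) := by
  have h1 := fkg_cond (A := D \ B) (D := D) (η := η) (c := c) (F := F) (E := Ea e D x r)
    (E' := SE e x r' R' H) hQ hη sdiff_subset (ind_of_loc hF) hF0 (inc_Ea e D x r)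
    (inc_SE e x r' R' H) fun ω hω _ => h ω hω
  have e1 : (fun ω => F ω * (Ea e D x r ∩ SE e x r' R' H).indicator 1 ω) =
      fun ω => F ω * (Ea e D x r).indicator 1 ω * (SE e x r' R' H).indicator 1 ω := by
    funext ω
    by_cases h1 : ω ∈ Ea e D x r <;> by_cases h2 : ω ∈ SE e x r' R' H <;>
      simp [Set.indicator, h1, h2]
  rwa [e1] at h1

end Vale.Agent.P167.H365.L
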