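import Vale.Agent.P167.H318.LC.Sp
import Vale.Agent.P167.H975.LfC
import Vale.Agent.P167.H685.LD.Prob

/-!
# P167, general `q`, block Q-LAM, [L-FLAT]: the square with a flat base, geometry

Sites, squares, the window around the base (polygon renumbered from the south east corner), the north
side; a strand of turning `4` cannot occur if the base is joined to the north side (`no_four`).
-/

namespace Vale.Agent.P167.H365.L

open Finset Vale.Agent.P145.FB
open Vale.Agent.P167 Vale.Agent.P167.BR Vale.Agent.P167.FK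
open Vale.Agent.P167.E6 (IsPolygon Encloses dir face)
open Vale.Agent.P167.Enl (PN qN qN_nat PN_lin PN_add_l)
open Vale.Agent.P167.H825 (enl pdir ptau)
open Vale.Agent.P167.H318.LC (sqP sqS sq_poly sq_encl sq_pdir sq_ptau q_nat tau_ptau)
open Vale.Agent.P167.H718.Lam (enP Pg)
open Vale.Agent.P167.H975 (qr qr_poly qr_encl JB oldi xy_old)
open Vale.Agent.P167.H685.LD (JW nm_le SE Ea fw_iff Cl)
open Vale.Agent.P167.H632 (cs pr)
open Vale.Agent.P167.QX (lo hi lo_xy hi_xy exists_xy)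
open Vale.Agent.P167.H192 (TA.dq)

variable {n s k : ℕ} {a : ℤ × ℤ} {τ : ℕ → ℤ} {η : Cfg}

/-! ### sites -/

/-- the south side -/
theorem PN_south (hn : 0 < n) {j : ℕ} (hj : j ≤ n) : PN (sqP 0) n j = ((j : ℤ), 0) := by
  rcases Nat.lt_or_ge j n with h | h
  · have h1 := PN_lin (p := sqP 0) hn (i := 0) h
    rw [zero_mul, zero_add] at h1
    rw [h1, sq_pdir 0 0 (by norm_num)]
    have e1 : sqP 0 ((0 : ℕ) : ZMod 4) = (0, 0) := rfl
    have e2 : dir (0 + Fin.ofNat 4 0) = (1, 0) := rfl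
    rw [e1, e2]
    simp
  · have h2 : j = 1 * n + 0 := by omega
    rw [h2, PN_lin (p := sqP 0) hn hn]
    have e1 : sqP 0 ((1 : ℕ) : ZMod 4) = (1, 0) := rfl
    rw [e1]
    simp

/-- the north side -/
theorem PN_north (hn : 0 < n) {j : ℕ} (hj : j ≤ n) :
    PN (sqP 0) n (2 * n + j) = ((n : ℤ) - j, (n : ℤ)) := by
  rcases Nat.lt_or_ge j n with h | h
  · rw [PN_lin (p := sqP 0) hn (i := 2) h, sq_pdir 0 2 (by norm_num)]
    have e1 : sqP 0 ((2 : ℕ) : ZMod 4) = (1, 1) := rfl
    have e2 : dir (0 + Fin.ofNat 4 2) = (-1, 0) := rfl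
    rw [e1, e2]
    simp
    ring
  · have h2 : 2 * n + j = 3 * n + 0 := by omega
    rw [h2, PN_lin (p := sqP 0) hn hn]
    have e1 : sqP 0 ((3 : ℕ) : ZMod 4) = (0, 1) := rfl
    rw [e1]
    simp
    omega

/-- the squares -/
theorem mem_D {v : ℤ × ℤ} : v ∈ (enP (sqP 0) sqS n s a k τ η).D ↔
    (a.1 ≤ v.1 ∧ v.1 < a.1 + n) ∧ a.2 ≤ v.2 ∧ v.2 < a.2 + n := by
  show v ∈ (enl sqS n).image (· + a) ↔ _
  unfold enl sqS
  rw [singleton_biUnion, mem_image]
  constructor
  · rintro ⟨w, hw, rfl⟩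
    rw [mem_image] at hw
    obtain ⟨⟨x, y⟩, h1, rfl⟩ := hw
    rw [mem_product, mem_range, mem_range] at h1
    simp only [Prod.fst_add, Prod.snd_add]
    omega
  · rintro ⟨⟨h1, h2⟩, h3, h4⟩
    refine ⟨v - a, ?_, sub_add_cancel v a⟩
    rw [mem_image]
    refine ⟨((v.1 - a.1).toNat, (v.2 - a.2).toNat), ?_, ?_⟩
    · rw [mem_product, mem_range, mem_range]
      dsimp only
      omega
    · refine Prod.ext ?_ ?_
      · simp only [Prod.fst_sub]
        omega
      · simp only [Prod.snd_sub]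
        omega

/-! ### the polygon renumbered from the south east corner -/

theorem qr_nat (hn : 0 < n) (hs : s < n) (j : ℕ) :
    qr (N := 4 * n) (enP (sqP 0) sqS n s a k τ η).q (n - s) (j : ZMod (4 * n)) = PN (sqP 0) n (j + n) + a := by
  have h := q_nat (S₀ := sqS) (s := s) (k := k) (a := a) (τ := τ) (η := η) hn (sq_poly 0) (j + (n - s))
  have e : j + (n - s) + s = j + n := by omega
  rw [e] at h
  rw [← h]
  show (enP (sqP 0) sqS n s a k τ η).q ((j : ZMod (4 * n)) + ((n - s : ℕ) : ZMod (4 * n))) = _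
  rw [← Nat.cast_add]

theorem qr_south (hn : 0 < n) (hs : s < n) {j : ℕ} (h1 : 3 * n ≤ j) (h2 : j ≤ 4 * n) :
    qr (N := 4 * n) (enP (sqP 0) sqS n s a k τ η).q (n - s) (j : ZMod (4 * n)) =
      (a.1 + ((j : ℤ) - 3 * n), a.2) := by
  rw [qr_nat hn hs]
  have e : j + n = (j - 3 * n) + 4 * n := by omega
  rw [e, PN_add_l hn, PN_south hn (by omega)]
  refine Prod.ext ?_ ?_
  · simp only [Prod.fst_add]
    push_cast [Nat.cast_sub h1]
    ring
  · simp

theorem qr_north (hn : 0 < n) (hs : s < n) {j : ℕ} (h1 : n ≤ j) (h2 : j ≤ 2 * n) :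
    qr (N := 4 * n) (enP (sqP 0) sqS n s a k τ η).q (n - s) (j : ZMod (4 * n)) =
      (a.1 + (2 * n - (j : ℤ)), a.2 + n) := by
  rw [qr_nat hn hs]
  have e : j + n = 2 * n + (j - n) := by omega
  rw [e, PN_north hn (by omega)]
  refine Prod.ext ?_ ?_
  · simp only [Prod.fst_add]
    push_cast [Nat.cast_sub h1]
    ring
  · simp only [Prod.snd_add]
    ring

theorem q_base (hn : 0 < n) (hs : s < n) :
    (enP (sqP 0) sqS n s a k τ η).q (0 : ZMod (4 * n)) = (a.1 + s, a.2) := by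
  have h := q_nat (S₀ := sqS) (s := s) (k := k) (a := a) (τ := τ) (η := η) hn (sq_poly 0) 0
  rw [Nat.cast_zero, zero_add, PN_south hn hs.le] at h
  rw [h]
  refine Prod.ext ?_ ?_
  · simp only [Prod.fst_add]
    ring
  · simp

/-- The window around the base, polygon renumbered from the south east corner. -/
theorem jw (hn : 0 < n) {R : ℤ} (hR : 1 ≤ R) (h1 : R < s) (h2 : R + s < n) :
    JW (n := 4 * n) (qr (N := 4 * n) (enP (sqP 0) sqS n s a k τ η).q (n - s))
      (enP (sqP 0) sqS n s a k τ η).D (3 * n + s) R := by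
  have hs : s < n := by omega
  have hc : qr (N := 4 * n) (enP (sqP 0) sqS n s a k τ η).q (n - s)
      ((3 * n + s : ℕ) : ZMod (4 * n)) = (a.1 + s, a.2) := by
    rw [qr_south hn hs (by omega) (by omega)]
    refine Prod.ext ?_ rfl
    dsimp only
    push_cast
    ring
  refine ⟨hR, by push_cast; omega, by push_cast; omega, ?_, ?_⟩
  · intro j j1 j2
    push_cast at j1 j2
    rw [hc, qr_south (k := k) (τ := τ) (η := η) (a := a) hn hs (j := j) (by omega) (by omega)]
    refine Prod.ext ?_ rfl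
    dsimp only
    push_cast
    ring
  · intro v hv
    rw [hc] at hv ⊢
    rw [nm_le] at hv
    simp only [Prod.fst_sub, Prod.snd_sub] at hv
    rw [mem_D]
    dsimp only
    omega

/-- **The window around the base.** -/
theorem jb (hn : 0 < n) {R : ℤ} (hR : 1 ≤ R) (h1 : R < s) (h2 : R + s < n) :
    JB (enP (sqP 0) sqS n s a k τ η).q (enP (sqP 0) sqS n s a k τ η).D (n - s) R := by
  have hk' : 4 * n - (n - s) = 3 * n + s := by omega
  refine ⟨show n - s ≤ 4 * n by omega, ?_⟩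
  show JW (n := 4 * n) _ _ (4 * n - (n - s)) R
  rw [hk']
  exact jw hn hR h1 h2

end Vale.Agent.P167.H365.L
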