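import Vale.Agent.P167.H365.L.Four

/-!
# P167, general `q`, block Q-LAM, [L-FLAT]: turnings, special indices and weights of the square with a
flat base
-/

namespace Vale.Agent.P167.H365.L

open Finset Vale.Agent.P145.FB
open Vale.Agent.P167 Vale.Agent.P167.BR Vale.Agent.P167.FK
open Vale.Agent.P167.E6 (IsPolygon Encloses dir face)
open Vale.Agent.P167.Enl (PN qN qN_nat PN_lin PN_add_l)
open Vale.Agent.P167.H825 (enl pdir ptau)
open Vale.Agent.P167.H318.LC (sqP sqS sq_poly sq_encl sq_pdir sq_ptau q_nat tau_ptau corner_iff)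
open Vale.Agent.P167.H718.Lam (enP Pg)
open Vale.Agent.P167.H718 (IsCl)
open Vale.Agent.P167.H975 (qr qr_poly qr_encl JB oldi xy_old TX TX_base GoodB)
open Vale.Agent.P167.H685.LD (JW nm_le SE Ea fw_iff Cl mem_Bq)
open Vale.Agent.P167.H632 (cs pr)
open Vale.Agent.P167.QX (lo hi lo_xy hi_xy exists_xy)
open Vale.Agent.P167.H365.NQ (XW)
open Vale.Agent.P167.H601.LG (GeoN Spe SepL wJ Kt feet near_spe near_base wJ_lp wJ_cl wJ_ot
  exists_low_wJ sin_pos' sin2_pos)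

variable {n s k : ℕ} {a : ℤ × ℤ} {τ : ℕ → ℤ} {η : Cfg} {ω : Cfg} {A : Finset Ed} {e : Bool}
  {r r' R' : ℤ} {σ R θ : ℝ} {j : ℕ}

/-- the turning of a strand -/
theorem kt_eq (hX : Pg.Ok (enP (sqP 0) sqS n s a k τ η) n σ R) (hs : s < n)
    (hA : A ∈ pcs ω (enP (sqP 0) sqS n s a k τ η).D)
    (hl : ¬ IsLp (enP (sqP 0) sqS n s a k τ η).D A) :
    Kt (enP (sqP 0) sqS n s a k τ η).q τ A =
      (((hi (enP (sqP 0) sqS n s a k τ η).q A + s) / n : ℕ) : ℤ) -
        (((lo (enP (sqP 0) sqS n s a k τ η).q A + s) / n : ℕ) : ℤ) ∧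
      (hi (enP (sqP 0) sqS n s a k τ η).q A + s) / n ≤ 4 ∧
      (lo (enP (sqP 0) sqS n s a k τ η).q A + s) / n ≤
        (hi (enP (sqP 0) sqS n s a k τ η).q A + s) / n := by
  have hn : 0 < n := by omega
  obtain ⟨h1, h2, -, -⟩ := feet hX.poly hX.enc hA hl
  have h2' : hi (enP (sqP 0) sqS n s a k τ η).q A < 4 * n := h2
  have t := fun j => tau_ptau (S₀ := sqS) (k := k) (a := a) (η := η) hn (sq_poly 0) hs hX.bd j
  have b1 : (hi (enP (sqP 0) sqS n s a k τ η).q A + s) / n ≤ 4 := by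
    rw [← Nat.lt_succ_iff, Nat.div_lt_iff_lt_mul hn]
    omega
  have b2 : (lo (enP (sqP 0) sqS n s a k τ η).q A + s) / n ≤
      (hi (enP (sqP 0) sqS n s a k τ η).q A + s) / n := Nat.div_le_div_right (by omega)
  refine ⟨?_, b1, b2⟩
  unfold Kt
  rw [t (hi (enP (sqP 0) sqS n s a k τ η).q A), t (lo (enP (sqP 0) sqS n s a k τ η).q A),
    sq_ptau 0 _ (by omega), sq_ptau 0 _ (lt_of_le_of_lt b2 (by omega))]
  ring

/-- the turning is `4` only for the strands over the base -/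
theorem kt_le (hX : Pg.Ok (enP (sqP 0) sqS n s a k τ η) n σ R) (hs : s < n)
    (hA : A ∈ pcs ω (enP (sqP 0) sqS n s a k τ η).D)
    (hl : ¬ IsLp (enP (sqP 0) sqS n s a k τ η).D A) :
    0 ≤ Kt (enP (sqP 0) sqS n s a k τ η).q τ A ∧
      (Kt (enP (sqP 0) sqS n s a k τ η).q τ A ≤ 3 ∨
      (Kt (enP (sqP 0) sqS n s a k τ η).q τ A = 4 ∧
        lo (enP (sqP 0) sqS n s a k τ η).q A + s < n ∧
        4 * n ≤ hi (enP (sqP 0) sqS n s a k τ η).q A + s)) := by
  have hn : 0 < n := by omega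
  obtain ⟨h1, h2, h3⟩ := kt_eq hX hs hA hl
  obtain ⟨u, hu⟩ : ∃ u, u = (hi (enP (sqP 0) sqS n s a k τ η).q A + s) / n := ⟨_, rfl⟩
  obtain ⟨v, hv⟩ : ∃ v, v = (lo (enP (sqP 0) sqS n s a k τ η).q A + s) / n := ⟨_, rfl⟩
  rw [← hu, ← hv] at h1 h3
  rw [← hu] at h2
  refine ⟨by omega, ?_⟩
  by_cases h4 : Kt (enP (sqP 0) sqS n s a k τ η).q τ A ≤ 3
  · exact Or.inl h4
  · right
    have h5 : (hi (enP (sqP 0) sqS n s a k τ η).q A + s) / n = 4 := by rw [← hu]; omega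
    have h6 : (lo (enP (sqP 0) sqS n s a k τ η).q A + s) / n = 0 := by rw [← hv]; omega
    refine ⟨by omega, ?_, ?_⟩
    · rw [Nat.div_eq_zero_iff] at h6
      omega
    · have := Nat.div_mul_le_self (hi (enP (sqP 0) sqS n s a k τ η).q A + s) n
      rw [h5] at this
      exact this

/-- no strand goes from the free to the wired part -/
theorem not_fw (hX : Pg.Ok (enP (sqP 0) sqS n s a k τ η) n σ R) (hk : k = 0 ∨ k = 4 * n)
    (hA : A ∈ pcs ω (enP (sqP 0) sqS n s a k τ η).D)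
    (hl : ¬ IsLp (enP (sqP 0) sqS n s a k τ η).D A) :
    ¬ (lo (enP (sqP 0) sqS n s a k τ η).q A < k ∧ k ≤ hi (enP (sqP 0) sqS n s a k τ η).q A) := by
  obtain ⟨h1, h2, -, -⟩ := feet hX.poly hX.enc hA hl
  have h2' : hi (enP (sqP 0) sqS n s a k τ η).q A < 4 * n := h2
  omega

/-- all weights are nonnegative -/
theorem w_nonneg (h0 : 0 < θ) (h1 : θ ≤ Real.pi / 3) (hX : Pg.Ok (enP (sqP 0) sqS n s a k τ η) n σ R) (hs : s < n)
    (hk : k = 0 ∨ k = 4 * n) (hA : A ∈ pcs ω (enP (sqP 0) sqS n s a k τ η).D) :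
    0 ≤ (enP (sqP 0) sqS n s a k τ η).w θ A := by
  have hpi := Real.pi_pos
  have hs1 := sin_pos' h0 h1
  have hs2 := sin2_pos h0 h1
  have hcos : 0 < Real.cos θ := Real.cos_pos_of_mem_Ioo ⟨by linarith, by linarith⟩
  show 0 ≤ wJ θ ((θ - Real.pi) / 2) _ _ k τ A
  by_cases hl : IsLp (enP (sqP 0) sqS n s a k τ η).D A
  · rw [wJ_lp hX.poly hX.enc hA hl hcos.ne']
    exact zero_le_one
  · obtain ⟨k0, k1⟩ := kt_le hX hs hA hl
    have hF := not_fw hX hk hA hl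
    have hlh := (feet hX.poly hX.enc hA hl).1.le
    have g0 : (0 : ℝ) ≤ (Kt (enP (sqP 0) sqS n s a k τ η).q τ A : ℝ) := by exact_mod_cast k0
    have g1 : (Kt (enP (sqP 0) sqS n s a k τ η).q τ A : ℝ) ≤ 4 := by
      have : Kt (enP (sqP 0) sqS n s a k τ η).q τ A ≤ 4 := by omega
      exact_mod_cast this
    by_cases hC : IsCl (enP (sqP 0) sqS n s a k τ η).D (enP (sqP 0) sqS n s a k τ η).q k A
    · rw [wJ_cl hl hlh hF hC]
      refine div_nonneg (Real.sin_nonneg_of_nonneg_of_le_pi ?_ ?_) hs2.le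
      · nlinarith
      · nlinarith
    · rw [wJ_ot hl hlh hF hC]
      refine div_nonneg (Real.sin_nonneg_of_nonneg_of_le_pi ?_ ?_) hs1.le
      · nlinarith
      · nlinarith

theorem XW_nonneg (h0 : 0 < θ) (h1 : θ ≤ Real.pi / 3) (hX : Pg.Ok (enP (sqP 0) sqS n s a k τ η) n σ R) (hs : s < n)
    (hk : k = 0 ∨ k = 4 * n) (ω : Cfg) :
    0 ≤ XW (enP (sqP 0) sqS n s a k τ η).D ((enP (sqP 0) sqS n s a k τ η).w θ) ω := by
  unfold XW
  exact prod_nonneg fun A hA => w_nonneg h0 h1 hX hs hk hA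

/-! ### special indices -/

/-- the special indices which are not the base are corners -/
theorem corner_of_spe (hX : Pg.Ok (enP (sqP 0) sqS n s a k τ η) n σ R) (hn : 0 < n) (hs : s < n) (hk : k = 0 ∨ k = 4 * n)
    (hj : 0 < j) (hjN : j < 4 * n) (h : Spe τ k j) :
    (((enP (sqP 0) sqS n s a k τ η).q (j : ZMod (4 * n))).1 = a.1 ∨
      ((enP (sqP 0) sqS n s a k τ η).q (j : ZMod (4 * n))).1 = a.1 + n) := by
  have h2 : τ j ≠ τ (j - 1) := by
    rcases h with h | h | ⟨-, h⟩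
    · omega
    · omega
    · exact h
  obtain ⟨i, h3, -⟩ := (corner_iff (S₀ := sqS) (k := k) (η := η) hn (sq_poly 0) hs hX.bd hj).1 h2
  have hi : i < 4 := by
    by_contra hc
    have : 5 * n ≤ (i + 1) * n := Nat.mul_le_mul_right n (by omega)
    omega
  have hs' : s < (i + 1) * n := by nlinarith
  have e : j + s = (i + 1) * n + 0 := by omega
  rw [q_nat (S₀ := sqS) (s := s) (k := k) (a := a) (τ := τ) (η := η) hn (sq_poly 0) j, e,
    PN_lin hn hn]
  have : i = 0 ∨ i = 1 ∨ i = 2 ∨ i = 3 := by omega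
  rcases this with rfl | rfl | rfl | rfl
  · right
    have e1 : sqP 0 ((0 + 1 : ℕ) : ZMod 4) = (1, 0) := rfl
    rw [e1]
    simp
    ring
  · right
    have e1 : sqP 0 ((1 + 1 : ℕ) : ZMod 4) = (1, 1) := rfl
    rw [e1]
    simp
    ring
  · left
    have e1 : sqP 0 ((2 + 1 : ℕ) : ZMod 4) = (0, 1) := rfl
    rw [e1]
    simp
  · left
    have e1 : sqP 0 ((3 + 1 : ℕ) : ZMod 4) = (0, 0) := rfl
    rw [e1]
    simp

/-- the base is far from the corners -/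
theorem sep_base {L : ℕ} (hX : Pg.Ok (enP (sqP 0) sqS n s a k τ η) n σ R) (hn : 0 < n) (hs0 : 0 < s) (hs : s < n)
    (hS : SepL L (4 * n) τ k) : L ≤ s ∧ L ≤ n - s := by
  have hne : ∀ i < 4, pdir (sqP 0) (i + 1) ≠ pdir (sqP 0) i := by
    intro i hi
    rw [sq_pdir 0 _ (by omega), sq_pdir 0 _ (by omega)]
    have : i = 0 ∨ i = 1 ∨ i = 2 ∨ i = 3 := by omega
    rcases this with rfl | rfl | rfl | rfl <;> decide
  have c := fun (j : ℕ) (hj : 0 < j) =>
    corner_iff (S₀ := sqS) (k := k) (η := η) hn (sq_poly 0) hs hX.bd hj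
  have c1 : Spe τ k (n - s) := Or.inr (Or.inr ⟨by omega, (c (n - s) (by omega)).2
    ⟨0, by omega, hne 0 (by norm_num)⟩⟩)
  have c2 : Spe τ k (4 * n - s) := Or.inr (Or.inr ⟨by omega, (c (4 * n - s) (by omega)).2
    ⟨3, by omega, hne 3 (by norm_num)⟩⟩)
  have d1 := hS 0 (n - s) (by omega) (by omega) (Or.inl rfl) c1
  have d2 := hS 0 (4 * n - s) (by omega) (by omega) (Or.inl rfl) c2
  omega

end Vale.Agent.P167.H365.L
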